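import Mathlib
import Vale.Agent.P322.ThmA
import Vale.Agent.P322.Assemble
import Vale.Agent.P322.Mutual

/-!
The Courtade-Kumar conjecture: no Boolean function of the input of `n` binary symmetric channels
carries more information about the output than a single coordinate.
-/

namespace Vale.Agent.Results.P322.CourtadeKumar

open Real Vale.Agent.P322

theorem result (n : ℕ) (f : (Fin n → Bool) → Bool) (ε : ℝ) (h0 : 0 ≤ ε) (h1 : ε ≤ 1 / 2) :
    mutualInfoBits (jointLaw ε f) ≤ 1 - Real.binEntropy ε / Real.log 2 := by
  refine bits_of_info (fun m g hg ρ hρ0 hρ1 => ?_) n f h0 h1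
  have hgap : ∀ u : Cube m → ℝ, gap u = ent (avg u) - avg (fun x => ent (u x)) := fun u => by
    have : avg (fun x => ent (u x)) = log 2 - avg (fun x => phi (u x)) := by
      simp only [ent]
      rw [Vale.Agent.P322.avg_sub, Vale.Agent.P322.avg_const]
    rw [this]; unfold gap ent; ring
  refine info_le_of_formBound (τ := tau) (by unfold tau; norm_num) (le_of_eq rfl) ?_ ?_ g hg hρ0 hρ1
  · intro u hu
    rw [hgap]; exact form_ge_two u hu
  · intro u hu s hs0 hs1 hK
    rw [hgap] at hK ⊢
    exact form_ge_line u hu hs0 hs1 hK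

end Vale.Agent.Results.P322.CourtadeKumar
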